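import Vale.Agent.P042.GS.Final2

theorem Vale.Agent.Results.P042.IntersectiveSqrt.result :
    ∀ k : ℕ, 2 ≤ k → ∃ c : ℝ, 0 < c ∧
      ∀ h : Polynomial ℤ, h.natDegree = k → 0 < h.leadingCoeff →
        (∀ q : ℕ, 1 ≤ q → ∃ t : ℤ, (q : ℤ) ∣ h.eval t) →
        ∃ C : ℝ, ∀ N : ℕ, 1 ≤ N →
          (Vale.Agent.P042.rmax h N : ℝ) ≤
            C * (N * Real.exp (-(c * Real.sqrt (Real.log N)))) := by
  intro k hk
  obtain ⟨c, hc, hmain⟩ := Vale.Agent.P042.GS.final2 k (by omega)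
  refine ⟨c, hc, ?_⟩
  intro h hdeg hlead hint
  obtain ⟨N₀, hN₀⟩ := hmain h hdeg hlead hint
  refine ⟨Real.exp (c * Real.sqrt (Real.log N₀)), ?_⟩
  intro N hN
  have hNR : (0 : ℝ) < N := by exact_mod_cast hN
  rcases le_or_gt N₀ N with h1 | h1
  · have h2 : (1 : ℝ) ≤ Real.exp (c * Real.sqrt (Real.log N₀)) :=
      Real.one_le_exp (mul_nonneg hc.le (Real.sqrt_nonneg _))
    have h3 : (0 : ℝ) ≤ N * Real.exp (-(c * Real.sqrt (Real.log N))) :=
      mul_nonneg hNR.le (Real.exp_pos _).le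
    calc (Vale.Agent.P042.rmax h N : ℝ) ≤ N * Real.exp (-(c * Real.sqrt (Real.log N))) :=
          hN₀ N h1
      _ ≤ _ := le_mul_of_one_le_left h3 h2
  · have hle : (Vale.Agent.P042.rmax h N : ℝ) ≤ N := by
      obtain ⟨A, hA, _, hcard⟩ := Vale.Agent.P042.FS.rmax_attained h N
      rw [← hcard]
      have h4 : A ⊆ Finset.Icc 1 (N : ℤ) := fun a ha => by
        rw [Finset.mem_Icc]; exact hA a ha
      have h5 := Finset.card_le_card h4
      have h6 : A.card ≤ N := by simpa using h5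
      exact_mod_cast h6
    refine hle.trans ?_
    have h7 : Real.log N ≤ Real.log N₀ := by
      apply Real.log_le_log hNR
      exact_mod_cast h1.le
    have h8 : (1 : ℝ) ≤ Real.exp (c * Real.sqrt (Real.log N₀)) *
        Real.exp (-(c * Real.sqrt (Real.log N))) := by
      rw [← Real.exp_add]
      apply Real.one_le_exp
      have := mul_le_mul_of_nonneg_left (Real.sqrt_le_sqrt h7) hc.le
      linarith
    calc (N : ℝ) = N * 1 := by ring
      _ ≤ N * (Real.exp (c * Real.sqrt (Real.log N₀)) *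
          Real.exp (-(c * Real.sqrt (Real.log N)))) := mul_le_mul_of_nonneg_left h8 hNR.le
      _ = _ := by ring
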