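import Vale.Agent.P042.Lower
import Vale.Agent.P042.Block1

open Polynomial Vale.Agent.P042

theorem Vale.Agent.Results.P042.SqLower.result :
    (∃ c : ℝ, 0 < c ∧ ∀ N : ℕ, 1 ≤ N →
      c * (N : ℝ) ^ ((34 : ℝ) / 45) ≤ (rmax (X ^ 2 : ℤ[X]) N : ℝ)) ∧
    ∀ (m : ℕ) (g : ℤ[X]), 1 ≤ m → ∃ c : ℝ, 0 < c ∧ ∀ N : ℕ, 1 ≤ N →
      c * (N : ℝ) ^ ((34 : ℝ) / 45) ≤ (rmax (C (m : ℤ) * g ^ 2) N : ℝ) := by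
  obtain ⟨Q, n, L, hQ, hM, hR, hpow⟩ := block1
  have key : ∀ (m : ℕ) (g : ℤ[X]), 1 ≤ m → ∃ c : ℝ, 0 < c ∧ ∀ N : ℕ, 1 ≤ N →
      c * (N : ℝ) ^ ((34 : ℝ) / 45) ≤ (rmax (C (m : ℤ) * g ^ 2) N : ℝ) := by
    intro m g hm
    have := lower hQ hM hR (by norm_num : 0 < 45) hpow m hm g
    simpa using this
  refine ⟨?_, key⟩
  have := key 1 X le_rfl
  simpa using this
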